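import Vale.Agent.P271.Bdl.B1

open MvPolynomial

namespace Vale.Agent.Results.P271.CodimTwoOrCoprime

open Vale.Agent.P271

/-- Fujita's freeness conjecture for all smooth weighted complete intersections of codimension at
most two, and for smooth weighted complete intersections of any codimension with pairwise coprime
weights. -/
theorem result {N c : ℕ} (hn : c < N) (X : SmoothWCI N c)
    (h : c ≤ 2 ∨ ∀ i i' : Fin (N + 1), i ≠ i' → Nat.Coprime (X.a i) (X.a i')) :
    X.FujitaFreeness := by
  intro k m hk hm x hx hf
  obtain ⟨z, hz, hfz, hsub, hcard⟩ := X.exists_min_support hx hf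
  apply X.exists_section_of_subset hsub
  rcases h with h | h
  · have hpos := Finset.card_pos.2 (SmoothWCI.supp_nonempty hz)
    by_cases h3 : (SmoothWCI.supp z).card = 3
    · exact X.exists_rep_of_card_three hn.le hz hfz h3 hk hm
    · -- at most two nonzero coordinates: their weights are coprime
      apply X.exists_rep_of_coprime hn.le hz hfz ?_ hk hm
      intro i hi i' hi' hne
      have hg := X.gcd_supp hz hfz
      have hEq : SmoothWCI.supp z = {i, i'} := by
        symm
        apply Finset.eq_of_subset_of_card_le
        · intro l hl
          rcases Finset.mem_insert.1 hl with rfl | hl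
          · exact hi
          · rw [Finset.mem_singleton.1 hl]; exact hi'
        · rw [Finset.card_pair hne]; omega
      rw [hEq, Finset.gcd_insert, Finset.gcd_singleton, normalize_eq] at hg
      exact hg
  · exact X.exists_rep_of_coprime hn.le hz hfz (fun i _ i' _ hne => h i i' hne) hk hm

end Vale.Agent.Results.P271.CodimTwoOrCoprime
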